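import Vale.Agent.P269L.Pm.All
import Vale.Agent.P269L.Pk.Fin

/-!
# The statement with the independence of the presentation, from that independence
-/

namespace Vale.Agent.P269L

open Set Function P269 MvPolynomial

/-- All presentations give the same invariants. -/
def J.Uniq {J K : Type} [Fintype J] (F : K → MvPolynomial J ℂ) : Prop :=
  ∀ g β n (N M : (Fin n → ℕ × Pub.Co (Pub.Var F)) → ℂ), 0 ≤ g → Pub.IsBM β →
    I.IsGW (Y := Pub.Var F) Pub.scal (Pub.cone F)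
      (fun x : J → ℂ => {v | ∀ k, ∑ j, v j * eval x (pderiv j (F k)) = 0}) (Quot.mk _) g β n N →
    I.IsGW (Y := Pub.Var F) Pub.scal (Pub.cone F)
      (fun x : J → ℂ => {v | ∀ k, ∑ j, v j * eval x (pderiv j (F k)) = 0}) (Quot.mk _) g β n M →
    ∀ l, (∀ i, Pub.Zc (l i).2) → M l = N l

namespace Pm

theorem eIsCyc : @c27 = @Pk.c27 := (rfl)

theorem eIsFund : @c28 = @Pk.c28 := (rfl)

theorem eIsLoc : @c45 = @Pk.c45 := (rfl)

theorem eIsEuler : @c46 = @Pk.c46 := (rfl)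

theorem eIni : @c84 = @Pk.c84 := (rfl)

theorem eVirE : @c89 = @Pk.c89 := by
  unfold c89 Pk.c89
  rw [eIsCyc, eIsLoc, eIni]
  rfl

theorem eIntg : @c90 = @Pk.c90 := by
  unfold c90 Pk.c90
  rw [eVirE, eIsEuler]
  rfl

theorem ePres : @c91 = @Pk.c91 := by
  unfold c91 Pk.c91
  rw [eIntg]
  rfl

theorem eIsGW : @c92 = @I.IsGW := by
  rw [← Pk.eIsGW]
  unfold c92 Pk.c92
  rw [ePres]
  rfl

theorem eIsHodge : @c37 = @Pk.c37 := (rfl)

theorem eIsCan : @c53 = @Pk.c53 := (rfl)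

theorem vir_of {Y : Type} [TopologicalSpace Y] {Hdg Fund Can GW Chk n}
    (h : Pk.c35 (Y := Y) Hdg Fund Can GW Chk n)
    (U : ∀ g β n N M, 0 ≤ g → Pub.IsBM β → GW g β n N → GW g β n M →
      ∀ l, (∀ i, Pub.Zc (l i).2) → M l = N l) : c35 (Y := Y) Hdg Fund Can GW Chk n :=
  let ⟨N, s, h1, h2⟩ := h
  ⟨N, s, fun g β n a b => ⟨h1 g β n a b, fun M c => U g β n _ M a b (h1 g β n a b) c⟩, h2⟩

theorem fin_of (N r : ℕ) (d : Fin r → ℕ) (F : Fin r → MvPolynomial (Fin (N + 1)) ℂ)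
    (hF : ∀ k, (F k).IsHomogeneous (d k))
    (hs : ∀ x ∈ c2 F, LinearIndependent ℂ fun k j => eval x (pderiv j (F k)))
    (hc : ConnectedSpace (c6 F)) (U : J.Uniq F) : c94 F d (N - r) := by
  have h := Pk.fin N r d F hF hs hc
  unfold Pk.c94 at h
  unfold c94
  rw [Pk.eIsGW] at h
  rw [eIsGW, eIsHodge, eIsCan, eIsFund]
  exact vir_of h U

end Pm

end Vale.Agent.P269L
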